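import Vale.Agent.P219.CH.Core.Defs

/-!
P219: averages of a `C¹` family of fields with compact support against measures of bounded mass:
derivatives and uniform bounds.
-/

namespace Vale.Agent.P219.CH.Core.Field

open MeasureTheory Set Filter Topology

noncomputable section

variable {n : ℕ} {P : Type*} [MeasurableSpace P]

/-- The average of a family. -/
def avg (Ψ : P × E n → E n) (μ : Measure P) (y : E n) : E n := ∫ x, Ψ (x, y) ∂μ

section

variable [NormedAddCommGroup P] [NormedSpace ℝ P]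

omit [MeasurableSpace P]

/-- The derivative in the second variable. -/
def D2 (Ψ : P × E n → E n) (p : P × E n) : E n →L[ℝ] E n :=
  (fderiv ℝ Ψ p).comp (ContinuousLinearMap.inr ℝ P (E n))

theorem continuous_D2 {Ψ : P × E n → E n} (h : ContDiff ℝ 1 Ψ) : Continuous (D2 Ψ) :=
  (h.continuous_fderiv one_ne_zero).clm_comp continuous_const

theorem hasFDerivAt_D2 {Ψ : P × E n → E n} (h : ContDiff ℝ 1 Ψ) (x : P) (y : E n) :
    HasFDerivAt (fun z => Ψ (x, z)) (D2 Ψ (x, y)) y :=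
  ((h.differentiable one_ne_zero).differentiableAt.hasFDerivAt).comp y
    (hasFDerivAt_prodMk_right x y)

theorem D2_eq_zero {Ψ : P × E n → E n} (h : ContDiff ℝ 1 Ψ) {K : Set (E n)} (hK : IsClosed K)
    (hsupp : ∀ x y, y ∉ K → Ψ (x, y) = 0) {x : P} {y : E n} (hy : y ∉ K) : D2 Ψ (x, y) = 0 := by
  refine (hasFDerivAt_D2 h x y).unique ?_
  refine (hasFDerivAt_const (0 : E n) y).congr_of_eventuallyEq ?_
  filter_upwards [hK.isOpen_compl.mem_nhds hy] with z hz using hsupp x z hz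

omit [NormedSpace ℝ P] in
/-- A modulus of continuity in the second variable, uniform in the first. -/
theorem exists_modulus {F : Type*} [NormedAddCommGroup F] {g : P × E n → F} (hg : Continuous g)
    {S : Set P} {K : Set (E n)} (hS : IsCompact S) (hK : IsCompact K)
    (hsupp : ∀ x ∈ S, ∀ y, y ∉ K → g (x, y) = 0) :
    ∃ (M : ℝ) (η : ℝ → ℝ), 0 ≤ M ∧ Tendsto η (𝓝 0) (𝓝 0) ∧ ∀ x ∈ S,
      (∀ y, ‖g (x, y)‖ ≤ M) ∧ ∀ y y', ‖g (x, y) - g (x, y')‖ ≤ η ‖y - y'‖ := by
  obtain ⟨M₀, hM₀⟩ := (hS.prod hK).exists_bound_of_continuousOn hg.continuousOn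
  have hM : ∀ x ∈ S, ∀ y, ‖g (x, y)‖ ≤ max M₀ 0 := fun x hx y => by
    by_cases hy : y ∈ K
    · exact (hM₀ (x, y) ⟨hx, hy⟩).trans (le_max_left _ _)
    · rw [hsupp x hx y hy, norm_zero]; exact le_max_right _ _
  set T : ℝ → Set ℝ := fun s =>
    insert 0 {r | ∃ x ∈ S, ∃ y y', ‖y - y'‖ ≤ |s| ∧ r = ‖g (x, y) - g (x, y')‖}
  have hT : ∀ s, ∀ r ∈ T s, r ≤ 2 * max M₀ 0 := fun s r hr => by
    rcases hr with rfl | ⟨x, hx, y, y', -, rfl⟩
    · positivity
    · exact (norm_sub_le _ _).trans (by linarith [hM x hx y, hM x hx y'])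
  refine ⟨max M₀ 0, fun s => sSup (T s), le_max_right _ _, ?_, fun x hx =>
    ⟨hM x hx, fun y y' => le_csSup ⟨_, hT _⟩
      (Or.inr ⟨x, hx, y, y', by rw [abs_norm], rfl⟩)⟩⟩
  rw [Metric.tendsto_nhds]
  intro ε hε
  have hK' : IsCompact (Metric.cthickening 1 K) := hK.cthickening
  obtain ⟨δ, hδ, hu⟩ := Metric.uniformContinuousOn_iff.1
    ((hS.prod hK').uniformContinuousOn_of_continuous hg.continuousOn) (ε / 2) (by positivity)
  filter_upwards [Metric.ball_mem_nhds (0 : ℝ) (lt_min hδ one_pos)] with s hs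
  rw [Metric.mem_ball, dist_zero_right, Real.norm_eq_abs, lt_min_iff] at hs
  have h0 : 0 ≤ sSup (T s) := le_csSup ⟨_, hT s⟩ (mem_insert _ _)
  rw [dist_zero_right, Real.norm_eq_abs, abs_of_nonneg h0]
  refine lt_of_le_of_lt (csSup_le ⟨0, mem_insert _ _⟩ fun r hr => ?_) (half_lt_self hε)
  rcases hr with rfl | ⟨x, hx, y, y', hyy, rfl⟩
  · positivity
  by_cases h : y ∈ K ∨ y' ∈ K
  · have hd : dist y y' ≤ 1 := by rw [dist_eq_norm]; linarith
    have hy : y ∈ Metric.cthickening 1 K ∧ y' ∈ Metric.cthickening 1 K := by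
      rcases h with h | h
      · exact ⟨Metric.self_subset_cthickening _ h,
          Metric.mem_cthickening_of_dist_le _ _ _ _ h (by rwa [dist_comm])⟩
      · exact ⟨Metric.mem_cthickening_of_dist_le _ _ _ _ h hd, Metric.self_subset_cthickening _ h⟩
    have := hu (x, y) ⟨hx, hy.1⟩ (x, y') ⟨hx, hy.2⟩ (by
      rw [Prod.dist_eq, dist_self, dist_eq_norm]
      exact max_lt hδ (lt_of_le_of_lt hyy hs.1))
    rw [dist_eq_norm] at this
    exact this.le
  · simp only [not_or] at h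
    rw [hsupp x hx y h.1, hsupp x hx y' h.2, sub_self, norm_zero]
    positivity

end

theorem norm_integral_le_mul {F : Type*} [NormedAddCommGroup F] [NormedSpace ℝ F]
    {μ : Measure P} [IsFiniteMeasure μ] {A b : ℝ} (hA : μ.real univ ≤ A) (hb : 0 ≤ b)
    {u : P → F} (h : ∀ᵐ x ∂μ, ‖u x‖ ≤ b) : ‖∫ x, u x ∂μ‖ ≤ b * A :=
  (norm_integral_le_of_norm_le_const h).trans (mul_le_mul_of_nonneg_left hA hb)

variable [NormedAddCommGroup P] [BorelSpace P]

theorem integrable_cont {F : Type*} [NormedAddCommGroup F]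
    {μ : Measure P} [IsFiniteMeasure μ] {S : Set P} (hS : IsCompact S)
    (hμ : ∀ᵐ x ∂μ, x ∈ S) {u : P → F} (hu : Continuous u) : Integrable u μ := by
  have h : IntegrableOn u S μ := hu.continuousOn.integrableOn_compact hS
  rwa [IntegrableOn, Measure.restrict_eq_self_of_ae_mem hμ] at h

variable [NormedSpace ℝ P]

theorem hasFDerivAt_avg {Ψ : P × E n → E n} (h : ContDiff ℝ 1 Ψ) {S : Set P}
    (hS : IsCompact S) {μ : Measure P} [IsFiniteMeasure μ] (hμ : ∀ᵐ x ∂μ, x ∈ S) (y : E n) :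
    HasFDerivAt (avg Ψ μ) (∫ x, D2 Ψ (x, y) ∂μ) y := by
  obtain ⟨M, hM⟩ := (hS.prod (isCompact_closedBall y 1)).exists_bound_of_continuousOn
    (continuous_D2 h).continuousOn
  refine hasFDerivAt_integral_of_dominated_of_fderiv_le (bound := fun _ => M)
    (F' := fun z x => D2 Ψ (x, z)) (Metric.ball_mem_nhds y one_pos)
    (Eventually.of_forall fun z => (h.continuous.comp (by fun_prop)).aestronglyMeasurable)
    (integrable_cont hS hμ (h.continuous.comp (by fun_prop)))
    ((continuous_D2 h).comp (by fun_prop)).aestronglyMeasurable ?_ (integrable_const M)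
    (Eventually.of_forall fun x z _ => hasFDerivAt_D2 h x z)
  filter_upwards [hμ] with x hx z hz using hM (x, z) ⟨hx, Metric.ball_subset_closedBall hz⟩

/-- Averages of a family with support in a compact set are uniformly `C¹`. -/
theorem exists_avg_bounds {Ψ : P × E n → E n} (h : ContDiff ℝ 1 Ψ) {S : Set P} {K : Set (E n)}
    (hS : IsCompact S) (hK : IsCompact K) (hsupp : ∀ x y, y ∉ K → Ψ (x, y) = 0) (A : ℝ) :
    ∃ (M : ℝ) (η : ℝ → ℝ), Tendsto η (𝓝 0) (𝓝 0) ∧ ∀ (μ : Measure P) [IsFiniteMeasure μ],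
      μ.real univ ≤ A → (∀ᵐ x ∂μ, x ∈ S) → FieldBound K M η (avg Ψ μ) := by
  obtain ⟨M₁, η₁, hM₁0, hη₁, h1⟩ := exists_modulus h.continuous hS hK fun x _ y => hsupp x y
  obtain ⟨M₂, η, hM₂0, hη, h2⟩ := exists_modulus (continuous_D2 h) hS hK
    fun x _ y hy => D2_eq_zero h hK.isClosed hsupp hy
  refine ⟨max M₁ M₂ * A, fun s => |η s| * A, by simpa using hη.abs.mul_const A, ?_⟩
  intro μ _ hmass hμ
  have hd := hasFDerivAt_avg h hS hμ
  have hint : ∀ y, Integrable (fun x => D2 Ψ (x, y)) μ := fun y =>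
    integrable_cont hS hμ ((continuous_D2 h).comp (by fun_prop))
  have hmod : ∀ y y', ‖fderiv ℝ (avg Ψ μ) y - fderiv ℝ (avg Ψ μ) y'‖ ≤ |η ‖y - y'‖| * A := by
    intro y y'
    rw [(hd y).fderiv, (hd y').fderiv, ← integral_sub (hint y) (hint y')]
    refine norm_integral_le_mul hmass (abs_nonneg _) ?_
    filter_upwards [hμ] with x hx using ((h2 x hx).2 y y').trans (le_abs_self _)
  refine ⟨contDiff_one_iff_fderiv.2 ⟨fun y => (hd y).differentiableAt, ?_⟩,
    closure_minimal ?_ hK.isClosed, fun y => ⟨?_, ?_⟩, hmod⟩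
  · rw [continuous_iff_continuousAt]
    intro y
    rw [ContinuousAt, tendsto_iff_norm_sub_tendsto_zero]
    have h0 : Tendsto (fun z : E n => ‖z - y‖) (𝓝 y) (𝓝 0) := by
      simpa using tendsto_iff_norm_sub_tendsto_zero.1 (tendsto_id (x := 𝓝 y))
    refine squeeze_zero (fun _ => norm_nonneg _) (fun z => hmod z y) ?_
    simpa using ((hη.comp h0).abs.mul_const A)
  · intro y hy
    by_contra hyK
    exact hy (by simp [avg, hsupp _ y hyK])
  · refine norm_integral_le_mul hmass (le_max_of_le_left hM₁0) ?_ |>.trans le_rfl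
    filter_upwards [hμ] with x hx using ((h1 x hx).1 y).trans (le_max_left _ _)
  · rw [(hd y).fderiv]
    refine norm_integral_le_mul hmass (le_max_of_le_left hM₁0) ?_
    filter_upwards [hμ] with x hx using ((h2 x hx).1 y).trans (le_max_right _ _)

end

end Vale.Agent.P219.CH.Core.Field
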