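import Vale.Agent.P219.CH.Defs

/-!
P219: traces of operators which are accretive for a positive symmetric form.
-/

namespace Vale.Agent.P219.CH.Core.Field

open scoped RealInnerProductSpace

noncomputable section

variable {n : ℕ}

/-- The sum of the diagonal entries is the trace. -/
theorem sum_diag_eq_trace (L : E n →ₗ[ℝ] E n) :
    ∑ i, L (EuclideanSpace.single i 1) i = LinearMap.trace ℝ (E n) L := by
  rw [LinearMap.trace_eq_sum_inner L (EuclideanSpace.basisFun (Fin n) ℝ)]
  simp [EuclideanSpace.inner_single_left]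

variable (B : E n →L[ℝ] E n →L[ℝ] ℝ) (hsymm : ∀ u v, B u v = B v u)
  (hpos : ∀ u, u ≠ 0 → 0 < B u u)
include hsymm hpos

/-- An operator `L` with `0 ≤ B (L w) w` has nonnegative trace. -/
theorem trace_nonneg (L : E n →ₗ[ℝ] E n) (hL : ∀ w, 0 ≤ B (L w) w) :
    0 ≤ LinearMap.trace ℝ (E n) L := by
  set S : E n →ₗ[ℝ] E n :=
    ((InnerProductSpace.toDual ℝ (E n)).symm.toContinuousLinearEquiv.toContinuousLinearMap.comp
      B).toLinearMap
  have hS : ∀ u v, ⟪S u, v⟫ = B u v := fun u v => InnerProductSpace.toDual_symm_apply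
  have hsym : S.IsSymmetric := fun u v => by
    rw [hS, real_inner_comm, hS, hsymm]
  set b := hsym.eigenvectorBasis (finrank_euclideanSpace_fin)
  rw [LinearMap.trace_eq_sum_inner L b]
  refine Finset.sum_nonneg fun i _ => ?_
  have hb : S (b i) = hsym.eigenvalues (finrank_euclideanSpace_fin) i • b i := by
    have h := hsym.apply_eigenvectorBasis (finrank_euclideanSpace_fin) i
    exact h
  have hi : B (b i) (b i) = hsym.eigenvalues (finrank_euclideanSpace_fin) i := by
    rw [← hS, hb, real_inner_smul_left, real_inner_self_eq_norm_sq, b.orthonormal.1 i]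
    simp
  have h0 : 0 < hsym.eigenvalues (finrank_euclideanSpace_fin) i :=
    hi ▸ hpos _ (b.orthonormal.ne_zero i)
  have h1 := hL (b i)
  rw [hsymm, ← hS, hb, real_inner_smul_left] at h1
  exact nonneg_of_mul_nonneg_right h1 h0

/-- If `B (L w) w ≥ B w w` then the trace of `L` on the orthogonal of a unit vector is at least
`n - 1`, and the whole trace is at least `n`. -/
theorem le_trace_sub (L : E n →ₗ[ℝ] E n) (hL : ∀ w, B w w ≤ B (L w) w) {ν : E n}
    (hν : ν = 0 ∨ B ν ν = 1) :
    (n : ℝ) - B ν ν ≤ LinearMap.trace ℝ (E n) L - B (L ν) ν := by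
  have htr : LinearMap.trace ℝ (E n) (L - LinearMap.id) =
      LinearMap.trace ℝ (E n) L - n := by
    rw [map_sub, LinearMap.trace_id, finrank_euclideanSpace_fin]
  rcases hν with rfl | hν
  · have h := trace_nonneg B hsymm hpos (L - LinearMap.id) fun w => by
      simpa using sub_nonneg.2 (hL w)
    simp only [map_zero, sub_zero]
    linarith
  set ψ : E n →ₗ[ℝ] ℝ := (B.flip ν).toLinearMap
  set Q : E n →ₗ[ℝ] E n := LinearMap.id - ψ.smulRight ν
  have hψ : ∀ w, ψ w = B w ν := fun w => rfl
  have hQ : ∀ w, Q w = w - B w ν • ν := fun w => rfl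
  have hQQ : Q * Q = Q := LinearMap.ext fun w => by
    simp [Module.End.mul_apply, hQ, hν]
  set P : E n →ₗ[ℝ] E n := L - LinearMap.id
  have hP : ∀ w, 0 ≤ B (P w) w := fun w => by simpa [P] using sub_nonneg.2 (hL w)
  have key : ∀ w, B ((Q * P * Q) w) w = B (P (Q w)) (Q w) := fun w => by
    simp only [Module.End.mul_apply, hQ, map_sub, map_smul, sub_apply, smul_apply, smul_eq_mul,
      hsymm ν w]
    ring
  have h := trace_nonneg B hsymm hpos (Q * P * Q) fun w => key w ▸ hP _
  have hc : LinearMap.trace ℝ (E n) (Q * P * Q) = LinearMap.trace ℝ (E n) P - B (P ν) ν := by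
    rw [LinearMap.trace_mul_comm, ← mul_assoc, hQQ, LinearMap.trace_mul_comm]
    have e : P * Q = P - ψ.smulRight (P ν) := LinearMap.ext fun w => by
      simp [Module.End.mul_apply, hQ, hψ]
    rw [e, map_sub, LinearMap.trace_smulRight, hψ]
  rw [hc] at h
  have e2 : B (P ν) ν = B (L ν) ν - 1 := by simp [P, hν]
  rw [hν]
  linarith

end

end Vale.Agent.P219.CH.Core.Field
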