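import Vale.Agent.P219.CH.Geo.Basic
import Vale.Agent.P219.CH.Core.Field.Trace
import Vale.Agent.P219.CH.Core.Defs

/-!
P219: the radial fields `z ↦ φ (dist x z ²) V x z` at one point: divergence along a level set, and
the sign of `G (V o y) (V x y)`.
-/

namespace Vale.Agent.P219.CH.Core.Field

open Set Filter Topology

noncomputable section

variable {n : ℕ} {G : Coeff n}

/-- The divergence along `ν⊥` from the first jet of a field. -/
def jetTan (G : Coeff n) (y ν : E n) : (E n →L[ℝ] E n) × E n →ₗ[ℝ] ℝ where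
  toFun p := (∑ i, (p.1 (EuclideanSpace.single i 1) + chrL G y (EuclideanSpace.single i 1) p.2) i) -
    G y (p.1 ν + chrL G y ν p.2) ν
  map_add' p q := by
    simp [chr_add_right, Finset.sum_add_distrib]
    ring
  map_smul' c p := by
    simp [Finset.mul_sum, ← mul_add, mul_sub]

theorem divTan_eq_jet (G : Coeff n) (f : E n → ℝ) (X : E n → E n) (y : E n) :
    divTan G f X y = jetTan G y (normal G f y) (fderiv ℝ X y, X y) := rfl

/-- The covariant derivative as a linear map. -/
def covdL (G : Coeff n) (X : E n → E n) (y : E n) : E n →ₗ[ℝ] E n :=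
  (fderiv ℝ X y + (chrL G y).flip (X y)).toLinearMap

theorem covdL_apply (G : Coeff n) (X : E n → E n) (y w : E n) :
    covdL G X y w = covd G X y w := rfl

theorem divg_eq_trace (G : Coeff n) (X : E n → E n) (y : E n) :
    divg G X y = LinearMap.trace ℝ (E n) (covdL G X y) :=
  sum_diag_eq_trace (covdL G X y)

theorem normal_sq (hG : IsMetric G) (f : E n → ℝ) (y : E n) :
    normal G f y = 0 ∨ G y (normal G f y) (normal G f y) = 1 := by
  rcases eq_or_ne (grad G f y) 0 with h | h
  · exact Or.inl (by simp [normal, h])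
  refine Or.inr ?_
  have h0 := hG.pos y _ h
  simp only [normal, map_smul, smul_apply, smul_eq_mul, gnorm]
  have hs := Real.mul_self_sqrt h0.le
  have hne : Real.sqrt (G y (grad G f y) (grad G f y)) ≠ 0 := (Real.sqrt_pos.2 h0).ne'
  field_simp
  linarith

theorem normal_sq_le (hG : IsMetric G) (f : E n → ℝ) (y : E n) :
    G y (normal G f y) (normal G f y) ≤ 1 := by
  rcases normal_sq hG f y with h | h
  · simp [h]
  · exact h.le

theorem inner_normal_sq_le (hG : IsMetric G) (f : E n → ℝ) (y u : E n) :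
    G y u (normal G f y) ^ 2 ≤ G y u u := by
  set ν := normal G f y
  set t := G y u ν
  have h := hG.nonneg y (u - t • ν)
  simp only [map_sub, map_smul, sub_apply, smul_apply, smul_eq_mul, hG.symm y ν u] at h
  change 0 ≤ G y u u - t * t - t * (t - t * G y ν ν) at h
  nlinarith [mul_le_mul_of_nonneg_left (normal_sq_le hG f y) (mul_self_nonneg t)]

variable (Γ : Geo G)

/-- The squared distance. -/
def rho (x y : E n) : ℝ := G x (Γ.logm x y) (Γ.logm x y)

theorem contDiff_rho (hG : IsMetric G) : ContDiff ℝ 1 fun q : E n × E n => rho Γ q.1 q.2 :=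
  (((hG.smooth.of_le (by simp)).comp contDiff_fst).clm_apply Γ.logm_c1).clm_apply Γ.logm_c1

theorem contDiff_V : ContDiff ℝ 1 fun q : E n × E n => Γ.V q.1 q.2 :=
  contDiff_snd.comp (Γ.flow_c1.comp
    (contDiff_const.prodMk (contDiff_fst.prodMk Γ.logm_c1)))

theorem dist_sq (hG : IsMetric G) (x y : E n) : Γ.dist x y ^ 2 = rho Γ x y :=
  Real.sq_sqrt (hG.nonneg x _)

theorem dist_nonneg (x y : E n) : 0 ≤ Γ.dist x y := Real.sqrt_nonneg _

theorem rho_nonneg (hG : IsMetric G) (x y : E n) : 0 ≤ rho Γ x y := hG.nonneg x _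

theorem sq_V (hG : IsMetric G) (x y : E n) : G y (Γ.V x y) (Γ.V x y) = rho Γ x y := by
  have h := congrArg (fun t => t ^ 2) (Γ.flow_speed 1 (x, Γ.logm x y))
  simp only [gnorm] at h
  rw [Real.sq_sqrt (hG.nonneg _ _), Real.sq_sqrt (hG.nonneg _ _), Γ.exp_logm] at h
  exact h

theorem dist_mul_cosAt (hG : IsMetric G) (f : E n → ℝ) (x y : E n) :
    Γ.dist x y * cosAt Γ f x y = G y (Γ.V x y) (normal G f y) := by
  rcases eq_or_ne (Γ.dist x y) 0 with h | h
  · have h1 : rho Γ x y = 0 := by rw [← dist_sq Γ hG, h]; simp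
    have h2 : Γ.V x y = 0 := by
      by_contra h2
      exact (hG.pos y _ h2).ne' (by rw [sq_V Γ hG, h1])
    simp [h, h2]
  · rw [cosAt]
    field_simp

theorem abs_cosAt_le (hG : IsMetric G) (f : E n → ℝ) (x y : E n) : |cosAt Γ f x y| ≤ 1 := by
  rcases eq_or_lt_of_le (dist_nonneg Γ x y) with h | h
  · simp [cosAt, ← h]
  · have h1 := inner_normal_sq_le hG f y (Γ.V x y)
    rw [sq_V Γ hG, ← dist_sq Γ hG, sq_le_sq, abs_of_pos h] at h1
    rw [cosAt, abs_div, abs_of_pos h, div_le_one h]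
    exact h1

/-- The radial field of the profile `φ`. -/
def radial (φ : ℝ → ℝ) (x y : E n) : E n := φ (rho Γ x y) • Γ.V x y

theorem contDiff_radial (hG : IsMetric G) {φ : ℝ → ℝ} (hφ : ContDiff ℝ 1 φ) :
    ContDiff ℝ 1 fun q : E n × E n => radial Γ φ q.1 q.2 :=
  (hφ.comp (contDiff_rho Γ hG)).smul (contDiff_V Γ)

theorem covd_radial (hG : IsMetric G) {φ : ℝ → ℝ} (hφ : ContDiff ℝ 1 φ) (x y w : E n) :
    covd G (radial Γ φ x) y w = φ (rho Γ x y) • covd G (Γ.V x) y w +
      (deriv φ (rho Γ x y) * (2 * G y (Γ.V x y) w)) • Γ.V x y := by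
  have hr : DifferentiableAt ℝ (rho Γ x) y :=
    (((contDiff_rho Γ hG).comp (contDiff_prodMk_right x)).differentiable one_ne_zero).differentiableAt
  have hV : DifferentiableAt ℝ (Γ.V x) y :=
    (((contDiff_V Γ).comp (contDiff_prodMk_right x)).differentiable one_ne_zero).differentiableAt
  have h1 := ((hφ.differentiable one_ne_zero (rho Γ x y)).hasDerivAt.comp_hasFDerivAt y
    hr.hasFDerivAt).fun_smul hV.hasFDerivAt
  have e : fderiv ℝ (rho Γ x) y w = 2 * G y (Γ.V x y) w := Γ.grad_dist x y w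
  have h2 : fderiv ℝ (radial Γ φ x) y = _ := h1.fderiv
  simp only [covd, h2, add_apply, smul_apply, ContinuousLinearMap.smulRight_apply, smul_eq_mul, e,
    radial, Function.comp_apply, chr_smul_right]
  rw [smul_add]
  abel

theorem sum_mul_coord (B : E n →L[ℝ] ℝ) (v : E n) :
    ∑ i, B (EuclideanSpace.single i 1) * v i = B v := by
  conv_rhs => rw [← (EuclideanSpace.basisFun (Fin n) ℝ).sum_repr v]
  simp [mul_comm]

/-- The pointwise bound of the tangential divergence of a radial field. -/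
theorem divTan_radial_ge (hG : IsMetric G) {φ : ℝ → ℝ} (hφ : ContDiff ℝ 1 φ)
    (hφ0 : ∀ s, 0 ≤ s → 0 ≤ φ s) (f : E n → ℝ) (x y : E n) :
    (1 - cosAt Γ f x y ^ 2) *
        (φ (Γ.dist x y ^ 2) + 2 * Γ.dist x y ^ 2 * deriv φ (Γ.dist x y ^ 2)) +
      φ (Γ.dist x y ^ 2) * ((n : ℝ) - 2 + cosAt Γ f x y ^ 2) ≤ divTan G f (radial Γ φ x) y := by
  set ν := normal G f y
  set ρ := rho Γ x y
  have hL := le_trace_sub (G y) (hG.symm y) (hG.pos y) (covdL G (Γ.V x) y)
    (fun w => Γ.hess x y w) (normal_sq hG f y)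
  rw [← divg_eq_trace, covdL_apply] at hL
  have hd : divg G (radial Γ φ x) y = φ ρ * divg G (Γ.V x) y + 2 * deriv φ ρ * ρ := by
    simp only [divg, covd_radial Γ hG hφ, PiLp.add_apply, PiLp.smul_apply, smul_eq_mul,
      Finset.sum_add_distrib, ← Finset.mul_sum]
    congr 1
    rw [show 2 * deriv φ ρ * ρ = 2 * deriv φ ρ * G y (Γ.V x y) (Γ.V x y) by rw [sq_V Γ hG],
      ← sum_mul_coord (G y (Γ.V x y)), Finset.mul_sum]
    exact Finset.sum_congr rfl fun i _ => by ring
  have hc := dist_mul_cosAt Γ hG f x y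
  have hρ := dist_sq Γ hG x y
  have hn : φ ρ * ((n : ℝ) - 1) ≤
      φ ρ * (divg G (Γ.V x) y - G y (covd G (Γ.V x) y ν) ν) :=
    mul_le_mul_of_nonneg_left (by linarith [normal_sq_le hG f y]) (hφ0 _ (rho_nonneg Γ hG x y))
  simp only [divTan, hd, covd_radial Γ hG hφ, map_add, map_smul, add_apply, smul_apply,
    smul_eq_mul]
  rw [hρ]
  have e : ρ * cosAt Γ f x y ^ 2 = G y (Γ.V x y) ν * G y (Γ.V x y) ν := by
    rw [← hc, show ρ = Γ.dist x y ^ 2 from hρ.symm]; ring
  linear_combination hn + (-2 * deriv φ ρ) * e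

/-- A radial field with constant profile has nonnegative tangential divergence. -/
theorem divTan_const_radial_nonneg (hG : IsMetric G) {τ : ℝ} (hτ : 0 ≤ τ) (f : E n → ℝ)
    (o y : E n) : 0 ≤ divTan G f (radial Γ (fun _ => τ) o) y := by
  have hL := le_trace_sub (G y) (hG.symm y) (hG.pos y) (covdL G (Γ.V o) y)
    (fun w => Γ.hess o y w) (normal_sq hG f y)
  rw [← divg_eq_trace, covdL_apply] at hL
  have hn : G y (normal G f y) (normal G f y) ≤ (n : ℝ) := by
    rcases normal_sq hG f y with h | h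
    · simp [h]
    · rw [h]
      rcases Nat.eq_zero_or_pos n with h' | h'
      · subst h'
        simp [Subsingleton.elim (normal G f y) 0] at h
      · exact_mod_cast h'
  have e : ∀ w, covd G (radial Γ (fun _ => τ) o) y w = τ • covd G (Γ.V o) y w := fun w => by
    rw [covd_radial Γ hG contDiff_const]; simp
  simp only [divTan, divg, e, PiLp.smul_apply, smul_eq_mul, ← Finset.mul_sum, map_smul,
    smul_apply]
  rw [← mul_sub]
  exact mul_nonneg hτ (by simp only [divg] at hL; linarith)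

/-- Seen from a point of a ball, the boundary is approached from inside. -/
theorem inner_V_nonneg (hG : IsMetric G) (o x y : E n) (h : rho Γ o x ≤ rho Γ o y) :
    0 ≤ G y (Γ.V o y) (Γ.V x y) := by
  set p : E n × E n := (x, Γ.logm x y)
  set γ : ℝ → E n := fun s => (Γ.flow s p).1
  set w : ℝ → E n := fun s => (Γ.flow s p).2
  have hγ : ∀ s, HasDerivAt γ (w s) s := fun s => by
    have := ((Γ.flow_geodesic p).1 s).1
    rwa [(Γ.flow_geodesic p).2 s] at this
  have hw : ∀ s, HasDerivAt w (-chr G (γ s) (w s) (w s)) s := fun s => by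
    have := ((Γ.flow_geodesic p).1 s).2
    rwa [show deriv (fun t => (Γ.flow t p).1) = w from funext (Γ.flow_geodesic p).2] at this
  set k : ℝ → ℝ := fun s => G (γ s) (Γ.V o (γ s)) (w s)
  have hk : ∀ s, HasDerivAt k (G (γ s) (covd G (Γ.V o) (γ s) (w s)) (w s)) s := fun s => by
    have hGd : HasDerivAt (fun t => G (γ t)) (fderiv ℝ G (γ s) (w s)) s :=
      ((hG.smooth.differentiable (by simp)) (γ s)).hasFDerivAt.comp_hasDerivAt s (hγ s)
    have hVd : HasDerivAt (fun t => Γ.V o (γ t)) (fderiv ℝ (Γ.V o) (γ s) (w s)) s :=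
      (((contDiff_V Γ).comp (contDiff_prodMk_right o)).differentiable one_ne_zero
        (γ s)).hasFDerivAt.comp_hasDerivAt s (hγ s)
    refine ((hGd.clm_apply hVd).clm_apply (hw s)).congr_deriv ?_
    simp only [add_apply, covd, map_add, hG.compat, map_neg]
    ring
  have hh : ∀ s, HasDerivAt (fun t => rho Γ o (γ t)) (2 * k s) s := fun s => by
    have hr : DifferentiableAt ℝ (rho Γ o) (γ s) := (((contDiff_rho Γ hG).comp
      (contDiff_prodMk_right o)).differentiable one_ne_zero).differentiableAt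
    exact (hr.hasFDerivAt.comp_hasDerivAt s (hγ s)).congr_deriv (Γ.grad_dist o (γ s) (w s))
  obtain ⟨c, hc, hslope⟩ := exists_hasDerivAt_eq_slope (fun t => rho Γ o (γ t)) (fun s => 2 * k s)
    zero_lt_one (fun s _ => (hh s).continuousAt.continuousWithinAt) fun s _ => hh s
  have hmono : Monotone k := monotone_of_hasDerivAt_nonneg hk fun s =>
    (hG.nonneg (γ s) (w s)).trans (Γ.hess o (γ s) (w s))
  have h0 : γ 0 = x := congrArg Prod.fst (Γ.flow_zero p)
  have h1 : γ 1 = y := Γ.exp_logm x y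
  have := hmono hc.2.le
  simp only [h0, h1, sub_zero, div_one] at hslope
  simp only [k, h1] at this
  change _ ≤ G y (Γ.V o y) (Γ.V x y) at this
  simp only [k] at hslope
  linarith

/-- Geodesic balls are compact. -/
theorem isCompact_gball (hG : IsMetric G) (o : E n) (R : ℝ) : IsCompact (gball Γ o R) := by
  have hexp : Continuous fun v => (Γ.flow 1 (o, v)).1 :=
    (Γ.flow_c1.continuous.comp (by fun_prop : Continuous fun v : E n => ((1 : ℝ), (o, v)))).fst
  have hcl : IsClosed (gball Γ o R) :=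
    isClosed_le (Real.continuous_sqrt.comp
      ((contDiff_rho Γ hG).continuous.comp (Continuous.prodMk_right o))) continuous_const
  obtain ⟨m, hm, hmin⟩ := (isCompact_sphere (0 : E n) 1).exists_forall_le'
    (f := fun v => G o v v) (by fun_prop) (a := 0)
    fun v hv => hG.pos o v fun e => by simp [e] at hv
  refine ((isCompact_closedBall (0 : E n) (max R 0 / Real.sqrt m)).image hexp).of_isClosed_subset hcl
    fun y hy => ⟨Γ.logm o y, ?_, Γ.exp_logm o y⟩
  rw [Metric.mem_closedBall, dist_zero_right, le_div_iff₀ (Real.sqrt_pos.2 hm)]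
  have hy' : Real.sqrt (G o (Γ.logm o y) (Γ.logm o y)) ≤ R := hy
  set u := Γ.logm o y
  rcases eq_or_ne u 0 with hu | hu
  · simp [hu]
  have hu' : 0 < ‖u‖ := norm_pos_iff.2 hu
  have := hmin (‖u‖⁻¹ • u) (by simp [norm_smul, inv_mul_cancel₀ hu'.ne'])
  simp only [map_smul, smul_apply, smul_eq_mul] at this
  have h2 : m * ‖u‖ ^ 2 ≤ G o u u := by
    have e : ‖u‖⁻¹ * (‖u‖⁻¹ * G o u u) = G o u u / ‖u‖ ^ 2 := by field_simp
    rw [e, le_div_iff₀ (by positivity)] at this
    linarith
  calc ‖u‖ * Real.sqrt m = Real.sqrt (m * ‖u‖ ^ 2) := by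
        rw [Real.sqrt_mul hm.le, Real.sqrt_sq hu'.le]; ring
    _ ≤ Real.sqrt (G o u u) := Real.sqrt_le_sqrt h2
    _ ≤ max R 0 := hy'.trans (le_max_left _ _)

end

end Vale.Agent.P219.CH.Core.Field
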