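import Vale.Agent.P219.CH.Core.Field.Avg
import Vale.Agent.P219.CH.Core.Field.Point

/-!
P219: the surface measure of a compactly supported function, integrable functions of the normal,
and the divergence theorem.
-/

namespace Vale.Agent.P219.CH.Core.Field

open MeasureTheory Set Filter Topology

noncomputable section

variable {n : ℕ} {G : Coeff n}

theorem contDiff_dens_one (hG : IsMetric G) : ContDiff ℝ 1 (dens G) :=
  hG.contDiff_dens.of_le (by simp)

theorem continuous_gnorm_grad (hG : IsMetric G) {f : E n → ℝ} (hf : ContDiff ℝ 1 f) :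
    Continuous fun x => gnorm G x (grad G f x) :=
  Real.continuous_sqrt.comp
    ((hG.smooth.continuous.clm_apply (hG.continuous_grad hf)).clm_apply (hG.continuous_grad hf))

theorem grad_eq_zero (f : E n → ℝ) {x : E n} (hx : x ∉ tsupport f) : grad G f x = 0 := by
  have h : fderiv ℝ f x = 0 := by
    by_contra h
    exact hx (tsupport_fderiv_subset ℝ (subset_tsupport _ h))
  simp [grad, h]

theorem measurable_normal (hG : IsMetric G) {f : E n → ℝ} (hf : ContDiff ℝ 1 f) :
    Measurable (normal G f) :=
  ((continuous_gnorm_grad hG hf).measurable.inv.neg).smul (hG.continuous_grad hf).measurable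

theorem isLocallyFinite_vol (hG : IsMetric G) : IsLocallyFiniteMeasure (vol G) :=
  IsLocallyFiniteMeasure.withDensity_ofReal (contDiff_dens_one hG).continuous

theorem integral_vol (hG : IsMetric G) (u : E n → ℝ) :
    ∫ x, u x ∂vol G = ∫ x, dens G x * u x := by
  rw [vol, integral_withDensity_eq_integral_toReal_smul
    (contDiff_dens_one hG).continuous.measurable.ennreal_ofReal
    (Eventually.of_forall fun x => ENNReal.ofReal_lt_top)]
  exact integral_congr_ae (Eventually.of_forall fun x => by
    simp [ENNReal.toReal_ofReal (hG.dens_pos x).le])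

/-- The surface measure is finite, has mass `tvar` and lives on the support. -/
theorem surf_facts (hG : IsMetric G) {f : E n → ℝ} (hf : ContDiff ℝ 1 f) {S : Set (E n)}
    (hS : IsCompact S) (hfS : tsupport f ⊆ S) :
    IsFiniteMeasure (surf G f) ∧ (surf G f).real univ = tvar G f ∧ ∀ᵐ x ∂surf G f, x ∈ S := by
  have := isLocallyFinite_vol hG
  have hint : Integrable (fun x => gnorm G x (grad G f x)) (vol G) :=
    (continuous_gnorm_grad hG hf).integrable_of_hasCompactSupport (by
      refine HasCompactSupport.intro hS fun x hx => ?_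
      simp [grad_eq_zero f fun h => hx (hfS h), gnorm])
  have hnn : ∀ x, 0 ≤ gnorm G x (grad G f x) := fun x => Real.sqrt_nonneg _
  have hu : surf G f univ = ENNReal.ofReal (tvar G f) := by
    rw [surf, withDensity_apply _ MeasurableSet.univ, Measure.restrict_univ, tvar,
      ofReal_integral_eq_lintegral_ofReal hint (Eventually.of_forall hnn)]
  refine ⟨⟨hu ▸ ENNReal.ofReal_lt_top⟩, ?_, ?_⟩
  · rw [measureReal_def, hu, ENNReal.toReal_ofReal (show 0 ≤ tvar G f from integral_nonneg hnn)]
  · rw [surf, ae_withDensity_iff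
      (continuous_gnorm_grad hG hf).measurable.ennreal_ofReal]
    refine Eventually.of_forall fun x hx => ?_
    by_contra h
    exact hx (by simp [grad_eq_zero f fun h' => h (hfS h'), gnorm])

theorem exists_normal_bound (hG : IsMetric G) {S : Set (E n)} (hS : IsCompact S) :
    ∃ C, ∀ y ∈ S, ∀ f : E n → ℝ, ‖normal G f y‖ ≤ C := by
  obtain ⟨m, hm, hmin⟩ := (hS.prod (isCompact_sphere (0 : E n) 1)).exists_forall_le'
    (f := fun p => G p.1 p.2 p.2)
    ((((hG.smooth.continuous.comp continuous_fst).clm_apply continuous_snd).clm_apply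
      continuous_snd).continuousOn) (a := 0)
    fun p hp => hG.pos p.1 p.2 fun e => by
      have := hp.2
      simp [e] at this
  refine ⟨1 / Real.sqrt m, fun y hy f => ?_⟩
  set u := normal G f y
  rcases eq_or_ne u 0 with hu | hu
  · simp only [hu, norm_zero]; positivity
  have hu' : 0 < ‖u‖ := norm_pos_iff.2 hu
  have := hmin (y, ‖u‖⁻¹ • u) ⟨hy, by simp [norm_smul, inv_mul_cancel₀ hu'.ne']⟩
  simp only [map_smul, smul_apply, smul_eq_mul] at this
  have e : ‖u‖⁻¹ * (‖u‖⁻¹ * G y u u) = G y u u / ‖u‖ ^ 2 := by field_simp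
  rw [e, le_div_iff₀ (by positivity)] at this
  rw [le_div_iff₀ (Real.sqrt_pos.2 hm)]
  calc ‖u‖ * Real.sqrt m = Real.sqrt (m * ‖u‖ ^ 2) := by
        rw [Real.sqrt_mul hm.le, Real.sqrt_sq hu'.le]; ring
    _ ≤ Real.sqrt 1 := Real.sqrt_le_sqrt (this.trans (normal_sq_le hG f y))
    _ = 1 := Real.sqrt_one

section

variable (hG : IsMetric G) {f : E n → ℝ} (hf : ContDiff ℝ 1 f) {S : Set (E n)}
  (hS : IsCompact S) {μ : Measure (E n)} [IsFiniteMeasure μ] (hμ : ∀ᵐ x ∂μ, x ∈ S)
include hG hf hS hμ

theorem integrable_normal₂ {F : E n × E n × E n → ℝ} (hF : Continuous F) :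
    Integrable (fun p : E n × E n => F (p.1, p.2, normal G f p.2)) (μ.prod μ) := by
  obtain ⟨C, hC⟩ := exists_normal_bound hG hS
  obtain ⟨B, hB⟩ := (hS.prod (hS.prod (isCompact_closedBall (0 : E n) C))).exists_bound_of_continuousOn
    hF.continuousOn
  refine Integrable.of_bound (hF.measurable.comp (measurable_fst.prodMk
    (measurable_snd.prodMk ((measurable_normal hG hf).comp measurable_snd)))).aestronglyMeasurable
    B ?_
  filter_upwards [Measure.quasiMeasurePreserving_fst.ae hμ,
    Measure.quasiMeasurePreserving_snd.ae hμ] with p h1 h2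
  exact hB _ ⟨h1, h2, by rw [Metric.mem_closedBall, dist_zero_right]; exact hC _ h2 f⟩

theorem integrable_normal {F : E n × E n → ℝ} (hF : Continuous F) :
    Integrable (fun y => F (y, normal G f y)) μ := by
  obtain ⟨C, hC⟩ := exists_normal_bound hG hS
  obtain ⟨B, hB⟩ := (hS.prod (isCompact_closedBall (0 : E n) C)).exists_bound_of_continuousOn
    hF.continuousOn
  refine Integrable.of_bound (hF.measurable.comp (measurable_id.prodMk
    (measurable_normal hG hf))).aestronglyMeasurable B ?_
  filter_upwards [hμ] with y hy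
  exact hB _ ⟨hy, by rw [Metric.mem_closedBall, dist_zero_right]; exact hC _ hy f⟩

theorem integrable_kernel (Γ : Geo G) {φ : ℝ → ℝ} (hφ : ContDiff ℝ 1 φ) :
    Integrable (fun p : E n × E n => (1 - cosAt Γ f p.1 p.2 ^ 2) *
        (φ (Γ.dist p.1 p.2 ^ 2) + 2 * Γ.dist p.1 p.2 ^ 2 * deriv φ (Γ.dist p.1 p.2 ^ 2)) +
      φ (Γ.dist p.1 p.2 ^ 2) * ((n : ℝ) - 2 + cosAt Γ f p.1 p.2 ^ 2)) (μ.prod μ) := by
  simp only [dist_sq Γ hG]
  set a := fun p : E n × E n => φ (rho Γ p.1 p.2) +
    2 * rho Γ p.1 p.2 * deriv φ (rho Γ p.1 p.2)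
  set b := fun p : E n × E n => φ (rho Γ p.1 p.2)
  have hρ := (contDiff_rho Γ hG).continuous
  have hb : Continuous b := hφ.continuous.comp hρ
  have ha : Continuous a :=
    hb.add ((continuous_const.mul hρ).mul ((hφ.continuous_deriv le_rfl).comp hρ))
  have hc : Measurable fun p : E n × E n => cosAt Γ f p.1 p.2 := by
    have h1 : Continuous fun q : (E n × E n) × E n => G q.1.2 (Γ.V q.1.1 q.1.2) q.2 :=
      ((hG.smooth.continuous.comp (continuous_snd.comp continuous_fst)).clm_apply
        ((contDiff_V Γ).continuous.comp continuous_fst)).clm_apply continuous_snd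
    exact (h1.measurable.comp (measurable_id.prodMk
      ((measurable_normal hG hf).comp measurable_snd))).div (Real.continuous_sqrt.comp hρ).measurable
  refine (integrable_normal₂ hG hf hS hμ (F := fun q : E n × E n × E n =>
    |a (q.1, q.2.1)| + |b (q.1, q.2.1)| * (|(n : ℝ) - 2| + 1)) (by fun_prop)).mono'
    ((((measurable_const.sub (hc.pow_const 2)).mul ha.measurable).add
      (hb.measurable.mul (measurable_const.add (hc.pow_const 2)))).aestronglyMeasurable)
    (Eventually.of_forall fun p => ?_)
  have h1 := abs_cosAt_le Γ hG f p.1 p.2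
  have h2 : cosAt Γ f p.1 p.2 ^ 2 ≤ 1 := by rw [sq_le_one_iff_abs_le_one]; exact h1
  have h3 := sq_nonneg (cosAt Γ f p.1 p.2)
  rw [Real.norm_eq_abs]
  refine (abs_add_le _ _).trans (add_le_add ?_ ?_)
  · rw [abs_mul]
    exact mul_le_of_le_one_left (abs_nonneg _) (by rw [abs_le]; constructor <;> linarith)
  · rw [abs_mul]
    refine mul_le_mul_of_nonneg_left ((abs_add_le _ _).trans (add_le_add le_rfl ?_)) (abs_nonneg _)
    rwa [abs_of_nonneg h3]

end

/-- The divergence times the density is a Euclidean divergence. -/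
theorem dens_mul_divg (hG : IsMetric G) {X : E n → E n} (hX : ContDiff ℝ 1 X) (y : E n) :
    dens G y * divg G X y =
      ∑ i, fderiv ℝ (fun z => dens G z * X z i) y (EuclideanSpace.single i 1) := by
  have hd := (contDiff_dens_one hG).differentiable one_ne_zero y
  have hX' := hX.differentiable one_ne_zero y
  have e : ∀ i, fderiv ℝ (fun z => dens G z * X z i) y (EuclideanSpace.single i 1) =
      dens G y * fderiv ℝ X y (EuclideanSpace.single i 1) i +
        X y i * fderiv ℝ (dens G) y (EuclideanSpace.single i 1) := fun i => by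
    have hi : HasFDerivAt (fun z => X z i) ((EuclideanSpace.proj (𝕜 := ℝ) i).comp (fderiv ℝ X y)) y :=
      (EuclideanSpace.proj (𝕜 := ℝ) i).hasFDerivAt.comp y hX'.hasFDerivAt
    rw [(hd.hasFDerivAt.fun_mul hi).fderiv]
    simp
  simp only [e, Finset.sum_add_distrib, ← Finset.mul_sum]
  have h2 : ∑ i, X y i * fderiv ℝ (dens G) y (EuclideanSpace.single i 1) =
      fderiv ℝ (dens G) y (X y) := by
    rw [← sum_mul_coord (fderiv ℝ (dens G) y) (X y)]
    exact Finset.sum_congr rfl fun i _ => mul_comm _ _
  rw [h2, hG.fderiv_dens, chrTr_apply]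
  simp only [divg, covd, PiLp.add_apply, Finset.sum_add_distrib, hG.chr_symm y (X y), mul_add]

/-- The divergence theorem. -/
theorem integral_mul_divg (hG : IsMetric G) {f : E n → ℝ} (hf : ContDiff ℝ 1 f)
    (hfc : HasCompactSupport f) {X : E n → E n} (hX : ContDiff ℝ 1 X) :
    ∫ y, f y * divg G X y ∂vol G = ∫ y, G y (X y) (normal G f y) ∂surf G f := by
  have hg : ∀ i, ContDiff ℝ 1 fun z => dens G z * X z i := fun i =>
    (contDiff_dens_one hG).mul ((EuclideanSpace.proj (𝕜 := ℝ) i).contDiff.comp hX)
  have hint : ∀ i, Integrable (fun y => fderiv ℝ f y (EuclideanSpace.single i 1) *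
      (dens G y * X y i)) := fun i =>
    ((((hf.continuous_fderiv one_ne_zero).clm_apply continuous_const).mul
      (hg i).continuous).integrable_of_hasCompactSupport (hfc.fderiv_apply ℝ _).mul_right)
  have hint2 : ∀ i, Integrable (fun y =>
      f y * fderiv ℝ (fun z => dens G z * X z i) y (EuclideanSpace.single i 1)) := fun i =>
    (hf.continuous.mul (((hg i).continuous_fderiv one_ne_zero).clm_apply
      continuous_const)).integrable_of_hasCompactSupport hfc.mul_right
  have hibp : ∀ i, ∫ y, f y * fderiv ℝ (fun z => dens G z * X z i) y (EuclideanSpace.single i 1) =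
      -∫ y, fderiv ℝ f y (EuclideanSpace.single i 1) * (dens G y * X y i) := fun i =>
    integral_mul_fderiv_eq_neg_fderiv_mul_of_integrable (hint i) (hint2 i)
      ((hf.continuous.mul (hg i).continuous).integrable_of_hasCompactSupport hfc.mul_right)
      (fun y _ => hf.differentiable one_ne_zero y) (fun y _ => (hg i).differentiable one_ne_zero y)
  have key : ∀ y, gnorm G y (grad G f y) * G y (X y) (normal G f y) = -fderiv ℝ f y (X y) := by
    intro y
    rw [← hG.G_grad, normal]
    rcases eq_or_ne (gnorm G y (grad G f y)) 0 with h | h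
    · have : grad G f y = 0 := by
        by_contra h'
        exact (Real.sqrt_pos.2 (hG.pos y _ h')).ne' h
      simp [this]
    · simp only [map_neg, map_smul, smul_eq_mul, neg_smul,
        hG.symm y (X y) (grad G f y)]
      field_simp
  rw [surf, integral_withDensity_eq_integral_toReal_smul
    (continuous_gnorm_grad hG hf).measurable.ennreal_ofReal
    (Eventually.of_forall fun x => ENNReal.ofReal_lt_top)]
  simp only [ENNReal.toReal_ofReal (Real.sqrt_nonneg _), gnorm, smul_eq_mul]
  have key' : ∀ y, Real.sqrt (G y (grad G f y) (grad G f y)) * G y (X y) (normal G f y) =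
      -fderiv ℝ f y (X y) := key
  simp only [key', integral_neg]
  rw [integral_vol hG, integral_vol hG]
  calc ∫ y, dens G y * (f y * divg G X y)
      = ∫ y, ∑ i, f y * fderiv ℝ (fun z => dens G z * X z i) y (EuclideanSpace.single i 1) :=
        integral_congr_ae (Eventually.of_forall fun y => by
          simp only [← Finset.mul_sum, ← dens_mul_divg hG hX]; ring)
    _ = ∑ i, -∫ y, fderiv ℝ f y (EuclideanSpace.single i 1) * (dens G y * X y i) := by
        rw [integral_finsetSum _ fun i _ => hint2 i]
        exact Finset.sum_congr rfl fun i _ => hibp i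
    _ = -∫ y, dens G y * fderiv ℝ f y (X y) := by
        rw [Finset.sum_neg_distrib, ← integral_finsetSum _ fun i _ => hint i]
        congr 1
        refine integral_congr_ae (Eventually.of_forall fun y => ?_)
        simp only [← sum_mul_coord (fderiv ℝ f y) (X y), Finset.mul_sum]
        exact Finset.sum_congr rfl fun i _ => by ring
    _ = _ := by rw [← integral_neg]

end

end Vale.Agent.P219.CH.Core.Field
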